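import Crest.Agent.N250.Jc.Lin
import Crest.Agent.N250.Em.Dr
import Crest.Agent.N250.El.Exp
import Crest.Agent.N250.Ce.Close
import Crest.Agent.N250.S9.Cast

/-!
# Row 250 (helper29): the end family restricted to a fixed cut `T`, in the space of jets
-/

set_option autoImplicit false
open Set Filter Topology Metric Complex

noncomputable section

namespace Crest.Agent.N250.Jc

open B1 Em
open Gi (hat)

variable {ℓ : Ell} {R T X X' : ℝ}

/-- half of the symbol -/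
def hf (ℓ : Ell) : Ell where
  l m := ℓ.l m / 2
  zero := by simp [ℓ.zero]
  nonneg m := by have := ℓ.nonneg m; positivity
  sub j k := by linarith [ℓ.sub j k]
  neg m := by rw [ℓ.neg]

theorem hf_le (ℓ : Ell) : S9.Le (hf ℓ) ℓ := fun m => half_le_self (ℓ.nonneg m)

open Classical in
/-- restriction from the cut `X` to the cut `T` -/
def rs (ℓ : Ell) (R T X : ℝ) : Jt ℓ →L[ℂ] Jt (hf ℓ) :=
  if h : Cut2 R T X then ContinuousLinearMap.pi fun i =>
    ((S9.cW (hf_le ℓ)).toContinuousLinearMap.comp (h.resL ℓ)).comp (ContinuousLinearMap.proj i)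
  else 0

theorem rs_eq (h : Cut2 R T X) (J : Jt ℓ) :
    rs ℓ R T X J = S9.cJ (hf_le ℓ) fun i => h.resW (J i) := by
  rw [rs, dif_pos h]; rfl

theorem co_rs (h : Cut2 R T X) (J : Jt ℓ) (i : Fin 6) (m : ℤ) (s : II) :
    Wi.co (rs ℓ R T X J i) m s = Wi.co (J i) m (h.phi s) := by
  rw [rs_eq h, S9.co_cJ, h.co_resW_apply]

theorem isJet_rs (h : Cut2 R T X) {J : Jt ℓ} (hJ : IsJet (dgam R X) J) :
    IsJet (dgam R T) (rs ℓ R T X J) := by
  have k := h.isJet hJ
  rw [rs_eq h]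
  exact ⟨fun m => by simpa using k.d0 m, fun m => by simpa using k.d1 m,
    fun m => by simpa using k.t0 m, fun m => by simpa using k.t1 m, fun m => by simpa using k.t2 m⟩

theorem norm_rs (h : Cut2 R T X) (J : Jt ℓ) : ‖rs ℓ R T X J‖ ≤ ‖J‖ := by
  rw [rs_eq h]
  refine (pi_norm_le_iff_of_nonneg (norm_nonneg _)).2 fun i => ?_
  exact ((Nl.norm_tr_le (S9.om_bd (hf_le ℓ)) _).trans_eq (one_mul _)).trans
    ((h.norm_resW _).trans (norm_le_pi_norm J i))

theorem phi_tX (h : Cut2 R T X) {x : ℝ} (hx : x ∈ Icc R T) : h.phi (tX R T x) = tX R X x := by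
  rw [← tX_xr h.lo' (h.phi _), h.xr_phi, xr_tX h.lo hx]

theorem val_rs (h : Cut2 R T X) (J : Jt ℓ) (i : Fin 6) {x : ℝ} (hx : x ∈ Icc R T) (θ : ℝ) :
    val (rs ℓ R T X J i) (tX R T x) θ = val (J i) (tX R X x) θ := by
  rw [rs_eq h, S9.val_cJ, h.val_resW, phi_tX h hx]

theorem rs_sub_le (hR : 1 ≤ R) (h : Cut2 R T X) (hX : X ≤ X') {J J' : Jt ℓ} {N : ℝ} (hN : 0 ≤ N)
    (k : Xc R X X' J' J N) : ‖rs ℓ R T X' J' - rs ℓ R T X J‖ ≤ N * T ^ 3 := by
  have h' : Cut2 R T X' := ⟨h.lo, h.le.trans hX⟩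
  have hT : 1 ≤ T := by linarith [h.lo]
  refine (pi_norm_le_iff_of_nonneg (by positivity)).2 fun i => ?_
  obtain ⟨β, hs, hb, hm⟩ := k i
  refine (Wi.norm_le_of (hs.hasSum.mul_right (T ^ 3)) fun m => ?_).trans (by gcongr)
  have key : ∀ s : II, 0 ≤ β m ∧
      ‖((om (hf ℓ)).w m * Wi.co ((rs ℓ R T X' J' - rs ℓ R T X J) i) m) s‖ ≤ β m * T ^ 3 := fun s => by
    have hx := xr_mem' h.lo s
    have h1 := hm m _ (h.mem s)
    have h2 : 1 ≤ xr R T s := hR.trans hx.1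
    have h3 : xr R T s ^ (7 / 8 : ℝ) * xr R T s ^ (![0, 1, 2, 0, 1, 0] i : ℕ) ≤ T ^ 3 := by
      have a1 : xr R T s ^ (7 / 8 : ℝ) ≤ T :=
        (Real.rpow_le_self_of_one_le h2 (by norm_num)).trans hx.2
      have a2 : xr R T s ^ (![0, 1, 2, 0, 1, 0] i : ℕ) ≤ T ^ 2 :=
        (pow_le_pow_right₀ h2 (by fin_cases i <;> simp)).trans (pow_le_pow_left₀ (by linarith) hx.2 2)
      calc _ ≤ T * T ^ 2 := mul_le_mul a1 a2 (by positivity) (by linarith)
        _ = T ^ 3 := by ring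
    have h0 : 0 ≤ β m := nonneg_of_mul_nonneg_left (le_trans (by positivity) h1) (by positivity)
    refine ⟨h0, le_trans (le_of_eq ?_) (h1.trans (mul_le_mul_of_nonneg_left h3 h0))⟩
    rw [ContinuousMap.mul_apply, norm_mul, Pi.sub_apply, Wi.co_sub, ContinuousMap.sub_apply,
      co_rs h', co_rs h, Res.om_w, Res.eW_apply, norm_real, Real.norm_of_nonneg (Real.exp_pos _).le,
      sig_xr' h.lo, h.comp_apply, h'.comp_apply, mul_div_assoc]
    rfl
  exact (ContinuousMap.norm_le _ (mul_nonneg (key i0).1 (by positivity))).2 fun s => (key s).2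

/-- the jet of the constant `1` -/
def oneJ (ℓ : Ell) : Jt ℓ := ![1, 0, 0, 0, 0, 0]

theorem vJ_eq (R : ℝ) (X a : ℂ) (J : Jt ℓ) : vJ R X a J = J + a • qj ℓ R X + oneJ ℓ := by
  rw [vJ, add_assoc]
  congr 1
  funext i
  have e : (2 : CI) = cst 2 := by ext s; rw [cst_apply]; rfl
  fin_cases i
  · change Wi.cst _ _ = a • Wi.cst _ (quad R X) + 1
    rw [← map_smul, ← map_one (Wi.cst (om ℓ)), ← map_add, add_comm, quad, smul_smul, e, sq]
    congr 3; ring
  · change Wi.cst _ _ = a • Wi.cst _ (gam R X) + 0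
    rw [add_zero, map_smul]
  · change Wi.cst _ _ = a • Wi.cst _ (1 : CI) + 0
    rw [add_zero, map_smul]
  all_goals simp [qj, oneJ]

theorem isJet_one (c : CI) : IsJet c (oneJ ℓ) where
  d0 m := by
    change B1.Der (Wi.co 1 m) (c * Wi.co 0 m)
    rw [Wi.co_one, Wi.co_zero, mul_zero]
    split_ifs
    exacts [Res.der_one, Res.der_zero]
  d1 m := by
    change B1.Der (Wi.co 0 m) (c * Wi.co 0 m)
    rw [Wi.co_zero, mul_zero]; exact Res.der_zero
  t0 m := by
    change Wi.co 0 m = _ • Wi.co 1 m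
    ext s
    by_cases hm : m = 0 <;> simp [Wi.co_one, hm]
  t1 m := by
    change Wi.co 0 m = _ • Wi.co 0 m
    simp
  t2 m := by
    change Wi.co 0 m = _ • Wi.co 1 m
    ext s
    by_cases hm : m = 0 <;> simp [Wi.co_one, hm]

theorem isJet_vJ {X a : ℂ} {J : Jt ℓ} (h : IsJet (dgam R X) J) : IsJet (dgam R X) (vJ R X a J) := by
  rw [vJ_eq]; exact (h.add ((isJet_qj ℓ R X).smul a)).add (isJet_one _)

theorem norm_qj (hR : 2 ≤ R) (h : R + 2 ≤ X) : ‖qj ℓ R X‖ ≤ X ^ 2 := by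
  have k : ∀ y : CI, (∀ s, ‖y s‖ ≤ X ^ 2) → ‖Wi.single (om ℓ) 0 y‖ ≤ X ^ 2 := fun y hy =>
    (Wi.norm_cst y).trans_le ((ContinuousMap.norm_le _ (by positivity)).2 hy)
  refine (pi_norm_le_iff_of_nonneg (by positivity)).2 fun i => ?_
  fin_cases i
  · refine k _ fun s => ?_
    have := xr_mem' h s
    have e : quad R X s = ((((xr R X s) ^ 2 - 2) / 2 : ℝ) : ℂ) := by
      rw [quad_apply, gam_real]; push_cast; rfl
    rw [e, norm_real, Real.norm_of_nonneg (by nlinarith [this.1])]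
    nlinarith [this.1, this.2]
  · refine k _ fun s => ?_
    have := xr_mem' h s
    rw [gam_real, norm_real, Real.norm_of_nonneg (by linarith [this.1])]
    nlinarith [this.2]
  · exact k _ fun s => by rw [ContinuousMap.one_apply, norm_one]; nlinarith
  all_goals simpa [qj] using sq_nonneg X

theorem norm_oneJ : ‖oneJ ℓ‖ ≤ 1 := by
  refine (pi_norm_le_iff_of_nonneg zero_le_one).2 fun i => ?_
  fin_cases i <;> simp [oneJ]

variable (U : Par ℓ → Jt ℓ) (R) (b0 : Wi (omP 2))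

/-- the working parameters without far slope -/
def zb (X : ℝ) (a : ℂ) (b : Wi (omP 2)) : Par ℓ := ((X : ℂ), a, wd (b0 + b) 0)

/-- the end function -/
def vv (X : ℝ) (a : ℂ) (b : Wi (omP 2)) : ℝ × ℝ → ℂ := vX R X a (U (zb b0 X a b))

/-- its jet restricted to the cut `T` -/
def eT (T X : ℝ) (a : ℂ) (b : Wi (omP 2)) : Jt (hf ℓ) := rs ℓ R T X (vJ R X a (U (zb b0 X a b)))

variable {U R b0} {K ε ε1 C0 Ch c CD C c0 : ℝ} {a : ℂ} {b : Wi (omP 2)}

theorem fk_eT (h : Cut2 R T X) (k : Fin 6) {y : ℝ × ℝ} (hy : y.1 ∈ Icc R T) :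
    fk (tX R T) (eT R U b0 T X a b) k y = vk R X a (U (zb b0 X a b)) (tX R X) k y := by
  rw [fk, eT, val_rs h _ _ hy, Ce.val_vJ]; rfl

/-- the easy regime -/
structure Ez (R K c X : ℝ) (a : ℂ) : Prop where
  h1 : 2 * R + 4 < X
  h2 : 2 * √K < X
  ha : ‖a‖ ≤ 4 * c / X ^ 2

theorem ev_ez (R K : ℝ) : ∀ᶠ X : ℝ in atTop, 2 * R + 4 < X ∧ 2 * √K < X :=
  (eventually_gt_atTop _).and (eventually_gt_atTop _)

section fm

variable (F : Fm U R K ε ε1 C0 Ch c CD C c0)
include F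

theorem Ez.pos (h : Ez R K c X a) : 8 < X := by linarith [h.h1, F.sz.hR]

theorem Ez.one (h : Ez R K c X a) : ‖a‖ ≤ 1 / X ^ 2 :=
  h.ha.trans (by gcongr; linarith [F.c_le])

theorem Ez.adm (h : Ez R K c X a) : Adm K X a := by
  have := Real.sq_sqrt F.K_pos.le
  exact Xi.adm_small (by linarith [h.pos F]) (by nlinarith [Real.sqrt_nonneg K, h.h2]) (h.one F)

theorem Ez.dom (h : Ez R K c X a) (hb : b ∈ Ub R ε b0) :
    zb b0 X a b ∈ Dom (ℓ := ℓ) R K (13 / 8) (7 / 4) ε :=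
  mem_dom h.h1 h.h2 (by linarith [h.pos F]) (h.adm F) hb
    (by simp only [norm_zero, mul_zero]; linarith [F.ε_pos])

theorem Ez.norm_U (h : Ez R K c X a) (hb : b ∈ Ub R ε b0) : ‖U (zb b0 X a b)‖ ≤ 6 * ε1 :=
  S9.inB_norm ex_138 F.sz.hR (by linarith [F.sz.hK]) (h.dom F hb) (F.sl (h.dom F hb)).inb

theorem diff_eT {P : Type*} [NormedAddCommGroup P] [NormedSpace ℂ P] {V : Set P} {a : P → ℂ}
    {b : P → Wi (omP 2)} (h1 : DifferentiableOn ℂ a V) (h2 : DifferentiableOn ℂ b V)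
    (hm : ∀ p ∈ V, Ez R K c X (a p) ∧ b p ∈ Ub R ε b0) :
    DifferentiableOn ℂ (fun p => eT R U b0 T X (a p) (b p)) V := by
  have h3 : DifferentiableOn ℂ (fun p => U (zb b0 X (a p) (b p))) V :=
    F.isEnd.hol.comp (f := fun p => zb b0 X (a p) (b p)) ((differentiableOn_const _).prodMk
      (h1.prodMk (differentiable_wd.comp_differentiableOn (f := fun p => (b0 + b p, (0 : ℂ)))
        ((h2.const_add b0).prodMk (differentiableOn_const _))))) fun p hp =>
      (hm p hp).1.dom F (hm p hp).2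
  simp only [eT, vJ_eq]
  exact (rs ℓ R T X).differentiable.comp_differentiableOn
    ((h3.add (h1.smul_const _)).add_const _)

theorem dr0 (hT : R + 2 ≤ T) : ∃ C' X1, El.Dr0 (eT R U b0 T) (Ub R ε b0) c (1 / 8) C' X1 := by
  obtain ⟨X1, h1⟩ := eventually_atTop.1 ((ev_ez R K).and (eventually_ge_atTop T))
  have hc := F.c_pos
  have hc' := F.c_le
  have hCD := F.CD_pos
  have hC := F.C_pos
  have he := F.ε1_nonneg
  have hR := F.sz.hR
  have hT0 : 0 < T := by linarith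
  have ez : ∀ X, X1 ≤ X → ∀ a : ℂ, ‖a‖ ≤ 4 * c / X ^ 2 → Ez R K c X a := fun X hX a ha =>
    ⟨(h1 X hX).1.1, (h1 X hX).1.2, ha⟩
  refine ⟨6 * ε1 + 2 + 3 * CD + C * T ^ 3, X1, isOpen_Ub _ _ _, hc, hc', by norm_num, by norm_num,
    fun X hX b hb => diff_eT F differentiableOn_id (differentiableOn_const _)
      fun a ha => ⟨ez X hX a (mem_ball_zero_iff.1 ha).le, hb⟩,
    fun X hX a ha => diff_eT F (differentiableOn_const _) differentiableOn_id
      fun b hb => ⟨ez X hX a (mem_ball_zero_iff.1 ha).le, hb⟩,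
    fun X hX a ha b hb => ?_, fun X X' hX hXX _ a ha ha' b hb => ?_⟩
  · have h := ez X hX a (mem_ball_zero_iff.1 ha).le
    have k : Cut2 R T X := ⟨hT, (h1 X hX).2⟩
    refine (norm_rs k _).trans ?_
    rw [vJ_eq]
    have h2 : ‖a • qj ℓ R X‖ ≤ 1 := by
      have := h.one F
      rw [le_div_iff₀ (by have := h.pos F; positivity)] at this
      rw [norm_smul]
      exact (mul_le_mul_of_nonneg_left (norm_qj hR k.lo') (norm_nonneg _)).trans this
    have := norm_add₃_le (a := U (zb b0 X a b)) (b := a • qj ℓ R X) (c := oneJ ℓ)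
    have := h.norm_U F hb
    have := norm_oneJ (ℓ := ℓ)
    have : 0 ≤ C * T ^ 3 := by positivity
    linarith
  · have h' := ez X' (hX.trans hXX) a ha
    obtain ⟨⟨k1, k2⟩, k3⟩ := h1 X hX
    have hX0 : 0 < X := by linarith
    have hz' := h'.dom F hb
    have S' := F.sl hz'
    obtain ⟨d1, d2⟩ := F.drift X X' a 0 (b0 + b) _ k1.le k2.le hXX (h'.adm F)
      (by rwa [le_div_iff₀ (by positivity)] at ha')
      (by rw [norm_zero]; have := F.Ch_nonneg; have := h'.pos F; positivity) S'.sol S'.inb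
    have t1 := F.tau_sub hz' k1.le hXX
    change ‖tauX R X X' a (U (zb b0 X' a b)) - a‖ ≤ _ at t1
    set τ := tauX R X X' a (U (zb b0 X' a b))
    have t2 : ‖τ‖ ≤ 2 * c / X ^ 2 := by
      have := norm_add_le (τ - a) a
      rw [sub_add_cancel] at this
      rw [mul_div_assoc]; linarith
    have h : Ez R K c X τ := ⟨k1, k2, t2.trans (by gcongr; norm_num)⟩
    have S := F.sl (h.dom F hb)
    have d3 := d2 0 _ (by rw [norm_zero]; have := F.Ch_nonneg; positivity) S.sol S.inb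
    have d4 := rs_sub_le (by linarith) ⟨hT, k3⟩ hXX (by positivity) d3
    have e : X ^ (-33 / 8 : ℝ) = X ^ (-(4 + 1 / 8) : ℝ) := by norm_num
    have hp : 0 < X ^ (-(4 + 1 / 8) : ℝ) := by positivity
    have h8 : 0 ≤ C * T ^ 3 := by positivity
    refine ⟨τ, t2, d1.trans ?_, d4.trans ?_⟩
    · have h5 := Xi.re_et (by linarith [h'.pos F]) (h'.one F)
      have h6 : 1 / X ^ 5 ≤ X ^ (-(4 + 1 / 8) : ℝ) := by
        have := Real.rpow_le_rpow_of_exponent_le (show 1 ≤ X by linarith)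
          (show (-(5 : ℕ) : ℝ) ≤ -(4 + 1 / 8) by norm_num)
        rwa [Real.rpow_neg hX0.le, Real.rpow_natCast, ← one_div] at this
      have h7 : 1 / (X ^ 6 * (et a X').re) ≤ 2 * (1 / X ^ 5) := by
        rw [div_le_iff₀ (by positivity)]
        have : 2 * (1 / X ^ 5) * (X ^ 6 * (et a X').re) = 2 * X * (et a X').re := by field_simp
        rw [this]; nlinarith
      nlinarith [mul_nonneg he hp.le, mul_nonneg h8 hp.le]
    · rw [e]; nlinarith [mul_nonneg he hp.le, mul_nonneg hCD.le hp.le]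

theorem exp (hT : R + 2 ≤ T) : ∃ z0 z1 z2 A, El.Exp (eT R U b0 T) (Ub R ε b0) c z0 z1 z2 A := by
  obtain ⟨_, _, h⟩ := dr0 (b0 := b0) F hT
  exact h.exp

end fm

end Crest.Agent.N250.Jc

end
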