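import Crest.Agent.N250.B1.Sm4
import Crest.Agent.N250.B1.End1
import Crest.Agent.N250.Lg.Jac

/-!
# Row 250 (helper29): jets in the Wiener algebra as functions; regularity for the linearised equation
-/

set_option autoImplicit false
open Set Filter Topology Complex
open scoped ContDiff

noncomputable section

namespace Crest.Agent.N250.Jc

open B1 Sm Po Lp

variable {ℓ : Ell} {R : ℝ} {X : ℂ} {τ : ℝ → II} {S : Set ℝ} {D : Jt ℓ} {y : ℝ × ℝ}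

/-- the value at a point -/
def valL (ℓ : Ell) (s : II) (θ : ℝ) : Wi (om ℓ) →L[ℂ] ℂ :=
  (ContinuousMap.evalCLM ℂ s).comp (Wi.ev (om ℓ) θ).toContinuousLinearMap

@[simp] theorem valL_apply (s : II) (θ : ℝ) (u : Wi (om ℓ)) : valL ℓ s θ u = val u s θ := rfl

theorem norm_val_le (u : Wi (om ℓ)) (s : II) (θ : ℝ) : ‖val u s θ‖ ≤ ‖u‖ :=
  ((Wi.syn u θ).norm_coe_le_norm s).trans (Wi.norm_syn_le u θ)

/-- the order of the components in `Lp.jet` -/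
def pm : Fin 6 → Fin 6 := ![0, 1, 3, 2, 4, 5]

/-- the 2-jet at a point -/
def evJ (ℓ : Ell) (s : II) (θ : ℝ) : Jt ℓ →L[ℂ] (Fin 6 → ℂ) :=
  ContinuousLinearMap.pi fun i => (valL ℓ s θ).comp (ContinuousLinearMap.proj (pm i))

theorem evJ_apply (s : II) (θ : ℝ) (D : Jt ℓ) (i : Fin 6) : evJ ℓ s θ D i = val (D (pm i)) s θ := rfl

/-- the components as functions of `(x, θ)` -/
def fk (τ : ℝ → II) (D : Jt ℓ) (k : Fin 6) (y : ℝ × ℝ) : ℂ := val (D k) (τ y.1) y.2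

theorem fk_eq (k : Fin 6) : fk τ D k = Sy 0 (md τ (D k)) := funext fun y => val_eq _ _ y

theorem fk_per (k : Fin 6) : Per (fk τ D k) := fun x θ => by simp [fk, val, Wi.syn_periodic]

theorem fk0 : fk τ D 0 = fun y => vk R X 0 D τ 0 y - 1 := by
  funext y; simp [fk, vk, vj, et]

theorem fk_c2 (h : IsJet (dgam R X) D) (hr : Rd R X τ S) (hS : UniqueDiffOn ℝ S) :
    ContDiffOn ℝ 2 (fk τ D 0) (S ×ˢ univ) := by
  rw [fk0 (R := R) (X := X)]; exact (h.c2 hr hS).sub contDiffOn_const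

theorem jet_fk (h : IsJet (dgam R X) D) (hr : Rd R X τ S) (hy : S ∈ 𝓝 y.1) :
    jet (fk τ D 0) y = evJ ℓ (τ y.1) y.2 D := by
  have e1 : d1 (fk τ D 0) = d1 fun w => ContinuousLinearMap.id ℝ ℂ (vk R X 0 D τ 0 w) := by
    funext q; rw [fk0 (R := R) (X := X), d1, fderiv_sub_const]; rfl
  have e2 : d2 (fk τ D 0) = d2 fun w => ContinuousLinearMap.id ℝ ℂ (vk R X 0 D τ 0 w) := by
    funext q; rw [fk0 (R := R) (X := X), d2, fderiv_sub_const]; rfl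
  funext i
  induction i using fin6
  · rfl
  · rw [jet1, e1, h.d1_0 hr hy]; simp [vk, vj, evJ_apply, pm]
  · rw [jet2, e2, h.d2_0 hr hy]; simp [vk, vj, evJ_apply, pm]
  · rw [jet3, e1, h.d11 hr hy]; simp [vk, vj, evJ_apply, pm]
  · rw [jet4, e2, h.d12 hr hy]; simp [vk, vj, evJ_apply, pm]
  · rw [jet5, e2, h.d22 hr hy]; simp [vk, vj, evJ_apply, pm]

/-! ### jets form a closed subspace -/

theorem isClosed_jet (c : CI) : IsClosed {J : Jt ℓ | IsJet c J} := by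
  have hc : ∀ (i : Fin 6) (m : ℤ), Continuous fun J : Jt ℓ => Wi.co (J i) m := fun i m =>
    (Wi.coL (om ℓ) m).continuous.comp (continuous_apply i)
  have hd : ∀ (i j : Fin 6) (m : ℤ), IsClosed {J : Jt ℓ | B1.Der (Wi.co (J i) m) (c * Wi.co (J j) m)} :=
    fun i j m => isClosed_eq (hc i m) ((cst.continuous.comp
      ((ContinuousMap.evalCLM ℂ i0).continuous.comp (hc i m))).add
        (pr.continuous.comp (continuous_const.mul (hc j m))))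
  have ht : ∀ (i j : Fin 6) (m : ℤ) (t : ℂ), IsClosed {J : Jt ℓ | Wi.co (J i) m = t • Wi.co (J j) m} :=
    fun i j m t => isClosed_eq (hc i m) ((hc j m).const_smul t)
  have e : {J : Jt ℓ | IsJet c J} = ⋂ m : ℤ, ({J : Jt ℓ | B1.Der (Wi.co (J 0) m) (c * Wi.co (J 1) m)} ∩
      {J | B1.Der (Wi.co (J 1) m) (c * Wi.co (J 2) m)} ∩
      {J | Wi.co (J 3) m = (m * I : ℂ) • Wi.co (J 0) m} ∩
      {J | Wi.co (J 4) m = (m * I : ℂ) • Wi.co (J 1) m} ∩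
      {J | Wi.co (J 5) m = (-(m : ℂ) ^ 2) • Wi.co (J 0) m}) := by
    ext J
    simp only [mem_ofPred, mem_iInter, mem_inter_iff]
    exact ⟨fun h m => ⟨⟨⟨⟨h.d0 m, h.d1 m⟩, h.t0 m⟩, h.t1 m⟩, h.t2 m⟩, fun h =>
      ⟨fun m => (h m).1.1.1.1, fun m => (h m).1.1.1.2, fun m => (h m).1.1.2, fun m => (h m).1.2,
        fun m => (h m).2⟩⟩
  rw [e]
  exact isClosed_iInter fun m =>
    ((((hd 0 1 m).inter (hd 1 2 m)).inter (ht 3 0 m _)).inter (ht 4 1 m _)).inter (ht 5 0 m _)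

theorem isJet_lim {c : CI} {ι : Type*} {l : Filter ι} [l.NeBot] {J : ι → Jt ℓ}
    (h : ∀ᶠ i in l, IsJet c (J i)) (ht : Tendsto J l (𝓝 D)) : IsJet c D :=
  (isClosed_jet c).mem_of_tendsto ht h

theorem isJet_deriv {c : CI} {J : ℂ → Jt ℓ} {t : ℂ} (h : ∀ᶠ u in 𝓝 t, IsJet c (J u))
    (hd : HasDerivAt J D t) : IsJet c D := by
  refine isJet_lim (l := 𝓝[≠] t) ?_ (hasDerivAt_iff_tendsto_slope.1 hd)
  filter_upwards [mem_nhdsWithin_of_mem_nhds h] with u hu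
  rw [slope_def_module, sub_eq_add_neg (J u), ← neg_one_smul ℂ (J t)]
  exact (hu.add (h.self_of_nhds.smul _)).smul _

/-! ### bootstrap with smooth coefficients -/

section boot

variable {I : Set ℝ}

/-- the class contains the smooth functions -/
def Has (C : Sm.Cl (univ : Set Unit) (I ×ˢ (univ : Set ℝ))) : Prop :=
  ∀ f : ℝ × ℝ → ℂ, ContDiffOn ℝ ∞ f (I ×ˢ univ) → C.S fun _ => f

theorem has_cc : Has (cc univ (I ×ˢ (univ : Set ℝ))) := fun _ hf _ _ => hf.continuousOn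

theorem smo_dr (hI : IsOpen I) {f : ℝ × ℝ → ℂ} (hf : ContDiffOn ℝ ∞ f (I ×ˢ univ)) :
    ContDiffOn ℝ ∞ (d1 f) (I ×ˢ univ) ∧ ContDiffOn ℝ ∞ (d2 f) (I ×ˢ univ) ∧
      Dr (univ : Set Unit) (I ×ˢ univ) (fun _ => f) (fun _ => d1 f) fun _ => d2 f := by
  have ho : IsOpen (I ×ˢ (univ : Set ℝ)) := hI.prod isOpen_univ
  have h1 : ContDiffOn ℝ ∞ (fderiv ℝ f) (I ×ˢ univ) := hf.fderiv_of_isOpen ho (by simp)
  refine ⟨h1.clm_apply contDiffOn_const, h1.clm_apply contDiffOn_const, fun _ _ y hy => ?_⟩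
  refine ((hf.contDiffAt (ho.mem_nhds hy)).differentiableAt
    (by simp)).hasFDerivAt.hasFDerivWithinAt.congr_fderiv (ContinuousLinearMap.ext fun v => ?_)
  have : v = v.1 • ((1, 0) : ℝ × ℝ) + v.2 • ((0, 1) : ℝ × ℝ) := by ext <;> simp
  conv_lhs => rw [this, map_add, map_smul, map_smul]
  simp [d1, d2]

theorem Has.up (hI : IsOpen I) {C : Sm.Cl (univ : Set Unit) (I ×ˢ (univ : Set ℝ))} (h : Has C) :
    ∀ n, Has (C.up n)
  | 0 => h
  | n + 1 => fun f hf => ⟨Has.up hI h n f hf, _, _, Has.up hI h n _ (smo_dr hI hf).1,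
      Has.up hI h n _ (smo_dr hI hf).2.1, (smo_dr hI hf).2.2⟩

theorem Has.th (hI : IsOpen I) {C : Sm.Cl (univ : Set Unit) (I ×ˢ (univ : Set ℝ))} (h : Has C) :
    ∀ n, Has (C.it (derT univ I) n)
  | 0 => h
  | n + 1 => fun f hf => ⟨Has.th hI h n f hf, _, _, Has.th hI h n _ (smo_dr hI hf).1,
      Has.th hI h n _ (smo_dr hI hf).2.1, (smo_dr hI hf).2.2.dt⟩

theorem boot' (hI : IsOpen I) (C : Sm.Cl (univ : Set Unit) (I ×ˢ (univ : Set ℝ))) (hC : Has C) (K : ℕ)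
    {W Pp Q : ℕ → Fn Unit} (hW : ∀ i ≤ K + 2, C.S (W i)) (hP : ∀ i ≤ K + 1, C.S (Pp i))
    (dW : ∀ i ≤ K + 1, Dr univ (I ×ˢ univ) (W i) (Pp i) (W (i + 1)))
    (dP : ∀ i ≤ K, Dr univ (I ×ˢ univ) (Pp i) (Q i) (Pp (i + 1)))
    (dQ : ∀ i < K, Dt univ (I ×ˢ univ) (Q i) (Q (i + 1)))
    (eq : ∀ C', Has (I := I) C' → C'.S (W 0) → C'.S (W 1) → C'.S (W 2) → C'.S (Pp 0) → C'.S (Pp 1) →
      C'.S (Q 0)) (n : ℕ) :
    (∀ i, i + n ≤ K + 2 → (C.up n).S (W i)) ∧ (∀ i, i + n ≤ K + 1 → (C.up n).S (Pp i)) ∧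
      ∀ i, i + n ≤ K → (C.up n).S (Q i) := by
  have key : ∀ n, (∀ i, i + n ≤ K + 2 → (C.up n).S (W i)) →
      (∀ i, i + n ≤ K + 1 → (C.up n).S (Pp i)) → ∀ i, i + n ≤ K → (C.up n).S (Q i) := by
    intro n h1 h2 i hi
    have a := th_mem (C := C.up n) (W := W) (N := i + 2) (fun l hl => h1 l (by omega))
      (fun l hl => (dW l (by omega)).dt) i
    have b := th_mem (C := C.up n) (W := Pp) (N := i + 1) (fun l hl => h2 l (by omega))
      (fun l hl => (dP l (by omega)).dt) i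
    have := th_out (C := C.up n) (N := i) (fun l hl => dQ l (by omega)) i 0 (by omega)
      (eq _ ((hC.up hI n).th hI i) (a 0 (by omega)) (a 1 (by omega)) (a 2 (by omega))
        (b 0 (by omega)) (b 1 (by omega)))
    simpa using this
  induction n with
  | zero =>
    exact ⟨fun i hi => hW i hi, fun i hi => hP i hi,
      key 0 (fun i hi => hW i hi) fun i hi => hP i hi⟩
  | succ n ih =>
    obtain ⟨h1, h2, h3⟩ := ih
    have a : ∀ i, i + (n + 1) ≤ K + 2 → (C.up (n + 1)).S (W i) := fun i hi =>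
      Sm.Cl.up_succ (h1 i (by omega)) (h2 i (by omega)) (h1 (i + 1) (by omega)) (dW i (by omega))
    have b : ∀ i, i + (n + 1) ≤ K + 1 → (C.up (n + 1)).S (Pp i) := fun i hi =>
      Sm.Cl.up_succ (h2 i (by omega)) (h3 i (by omega)) (h2 (i + 1) (by omega)) (dP i (by omega))
    exact ⟨a, b, key _ a b⟩

end boot

theorem lin_smooth (hS : IsOpen S) (hr : Rd R X τ S) (h : IsJet (dgam R X) D)
    (hg : ∀ n, ∃ B, ∀ x ∈ S, Gain (om ℓ) n B (τ x)) {c : Fin 6 → ℝ × ℝ → ℂ}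
    (hc : ∀ i, ContDiffOn ℝ ∞ (c i) (S ×ˢ univ))
    (eq : ∀ y ∈ S ×ˢ (univ : Set ℝ), fk τ D 2 y = c 0 y * fk τ D 0 y + c 1 y * fk τ D 1 y +
      c 2 y * fk τ D 3 y + c 4 y * fk τ D 4 y + c 5 y * fk τ D 5 y) :
    ContDiffOn ℝ ∞ (fk τ D 0) (S ×ˢ univ) := by
  refine contDiffOn_infty.2 fun n => ?_
  obtain ⟨B, hB⟩ := hg n
  have hm : ∀ k, Sm.Md S n (md τ (D k)) := fun k => md_Md hr.cont hB _
  have key := boot' hS _ has_cc n (W := fun i _ => Sy i (md τ (D 0)))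
    (Pp := fun i _ => Sy i (md τ (D 1))) (Q := fun i _ => Sy i (md τ (D 2)))
    (fun i hi _ _ => (h.md0 hm).cSy hi) (fun i hi _ _ => (h.md1 hm).cSy hi)
    (fun i hi _ _ y hy => h.dW hr hm hi hy) (fun i hi _ _ y hy => h.dP hr hm hi hy)
    (fun i hi _ _ y hy => (hm 2).dt hi hy.1) (fun C' hE w0 w1 w2 p0 p1 => ?_) n
  · rw [fk_eq]
    exact Sm.Cl.up_contDiffOn (hS.prod isOpen_univ).uniqueDiffOn (key.1 0 (by omega)) () trivial
  · refine C'.congr (C'.add (C'.add (C'.add (C'.add (C'.mul (hE _ (hc 0)) w0)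
      (C'.mul (hE _ (hc 1)) p0)) (C'.mul (hE _ (hc 2)) w1)) (C'.mul (hE _ (hc 4)) p1))
      (C'.mul (hE _ (hc 5)) w2)) fun _ _ y hy => ?_
    have := eq y hy
    simp only [fk_eq, h.sy3, h.sy4, h.sy5] at this
    exact this

/-! ### the coefficients of the linearised equation -/

/-- non degenerate jets -/
def Nd (j : Fin 6 → ℂ) : Prop := j 0 ≠ 0 ∧ QQj j ≠ 0 ∧ 4 * j 0 ^ 2 + j 2 ^ 2 ≠ 0

theorem cd_ELj {p : ℂ × (Fin 6 → ℂ)} (h0 : p.2 0 ≠ 0) (hQ : QQj p.2 ≠ 0) (n : WithTop ℕ∞) :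
    ContDiffAt ℂ n (fun p : ℂ × (Fin 6 → ℂ) => ELj p.1 p.2) p := by
  have h1 : (2 : ℂ) * p.2 0 ≠ 0 := mul_ne_zero two_ne_zero h0
  have h2 : (2 : ℂ) * p.2 0 ^ 2 ≠ 0 := mul_ne_zero two_ne_zero (pow_ne_zero _ h0)
  have h3 : (4 : ℂ) * p.2 0 ^ 2 ≠ 0 := mul_ne_zero (by norm_num) (pow_ne_zero _ h0)
  have h4 : (2 : ℂ) * (2 * p.2 0 + p.2 1 ^ 2 + p.2 2 ^ 2 / (2 * p.2 0)) ≠ 0 := mul_ne_zero two_ne_zero hQ
  unfold ELj EL QQ
  fun_prop (disch := assumption)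

theorem cd_ELj' (x : ℂ) {j : Fin 6 → ℂ} (h : Nd j) : ContDiffAt ℂ 1 (ELj x) j :=
  (cd_ELj (p := (x, j)) h.1 h.2.1 1).comp j (contDiffAt_const.prodMk contDiffAt_id)

theorem cd_fderiv {p : ℂ × (Fin 6 → ℂ)} (h : Nd p.2) (v : Fin 6 → ℂ) :
    ContDiffAt ℂ ∞ (fun p : ℂ × (Fin 6 → ℂ) => fderiv ℂ (ELj p.1) p.2 v) p := by
  have h1 : ContDiffAt ℂ ∞ (Function.uncurry fun (p : ℂ × (Fin 6 → ℂ)) j => ELj p.1 j) (p, p.2) :=
    (cd_ELj (p := (p.1, p.2)) h.1 h.2.1 ∞).comp (p, p.2)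
      (f := fun q : (ℂ × (Fin 6 → ℂ)) × (Fin 6 → ℂ) => (q.1.1, q.2)) (by fun_prop)
  exact (h1.fderiv (m := ∞) contDiffAt_snd (by simp)).clm_apply contDiffAt_const

theorem lead_ne (x : ℂ) {j : Fin 6 → ℂ} (h : Nd j) : fderiv ℂ (ELj x) j (Pi.single 3 1) ≠ 0 := by
  have h1 : HasDerivAt (fun t : ℂ => j + t • (Pi.single 3 1 : Fin 6 → ℂ)) (Pi.single 3 1) 0 := by
    simpa using ((hasDerivAt_id (0 : ℂ)).smul_const (Pi.single 3 1 : Fin 6 → ℂ)).const_add j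
  have h2 := (diff_ELj x h.1 h.2.1).hasFDerivAt.comp_hasDerivAt_of_eq 0 h1 (by simp)
  have h0 := h.1
  have hQ : QQ (j 0) (j 1) (j 2) ≠ 0 := h.2.1
  have e : (ELj x ∘ fun t : ℂ => j + t • (Pi.single 3 1 : Fin 6 → ℂ)) =
      fun t => ELj x j + t * (1 - j 1 ^ 2 / QQ (j 0) (j 1) (j 2)) := by
    funext t
    simp only [Function.comp, ELj, EL, Pi.add_apply, Pi.smul_apply, Pi.single_apply]
    simp
    field_simp
    ring
  rw [e] at h2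
  have h3 := h2.unique (((hasDerivAt_id (0 : ℂ)).mul_const _).const_add _)
  rw [h3, one_mul, one_sub_div hQ]
  refine div_ne_zero (fun k => h.2.2 ?_) hQ
  rw [QQ] at k
  field_simp at k
  linear_combination k

theorem cd_jet {V : ℝ × ℝ → ℂ} (hS : IsOpen S) (hV : ContDiffOn ℝ ∞ V (S ×ˢ univ)) :
    ContDiffOn ℝ ∞ (jet V) (S ×ˢ univ) := by
  obtain ⟨h1, h2, -⟩ := smo_dr hS hV
  refine contDiffOn_pi.2 fun i => ?_
  induction i using fin6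
  exacts [hV, h1, h2, (smo_dr hS h1).1, (smo_dr hS h2).1, (smo_dr hS h2).2.1]

/-- **a jet that solves the linearised equation is smooth** -/
theorem lin_reg (hS : IsOpen S) (hr : Rd R X τ S) (h : IsJet (dgam R X) D)
    (hg : ∀ n, ∃ B, ∀ x ∈ S, Gain (om ℓ) n B (τ x)) {V : ℝ × ℝ → ℂ}
    (hV : ContDiffOn ℝ ∞ V (S ×ˢ univ)) (hn : ∀ y ∈ S ×ˢ (univ : Set ℝ), Nd (jet V y))
    (eq : ∀ y ∈ S ×ˢ (univ : Set ℝ), linEL V (fk τ D 0) y = 0) :
    ContDiffOn ℝ ∞ (fk τ D 0) (S ×ˢ univ) := by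
  set k : Fin 6 → ℝ × ℝ → ℂ := fun i y => fderiv ℂ (ELj y.1) (jet V y) (Pi.single i 1) with hk
  have ck : ∀ i, ContDiffOn ℝ ∞ (k i) (S ×ˢ univ) := fun i y hy =>
    ((cd_fderiv (p := ((y.1 : ℂ), jet V y)) (hn y hy) (Pi.single i 1)).restrict_scalars
      ℝ).comp_contDiffWithinAt (f := fun y : ℝ × ℝ => ((y.1 : ℂ), jet V y)) y
        ((ofRealCLM.contDiff.comp contDiff_fst).contDiffWithinAt.prodMk (cd_jet hS hV y hy))
  have k3 : ∀ y ∈ S ×ˢ (univ : Set ℝ), k 3 y ≠ 0 := fun y hy => lead_ne _ (hn y hy)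
  refine lin_smooth hS hr h hg (c := fun i y => -k i y * (k 3 y)⁻¹)
    (fun i => (ck i).neg.mul ((ck 3).inv k3)) fun y hy => ?_
  have e := eq y hy
  rw [linEL, jet_fk h hr (hS.mem_nhds hy.1), pi_eq_sum_univ' (evJ ℓ (τ y.1) y.2 D), map_sum,
    Fin.sum_univ_six] at e
  simp only [map_smul, smul_eq_mul] at e
  change fk τ D 0 y * k 0 y + fk τ D 1 y * k 1 y + fk τ D 3 y * k 2 y + fk τ D 2 y * k 3 y +
    fk τ D 4 y * k 4 y + fk τ D 5 y * k 5 y = 0 at e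
  have := k3 y hy
  field_simp
  linear_combination e

end Crest.Agent.N250.Jc

end
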