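import Crest.Agent.N250.Jc.Jet
import Crest.Agent.N250.El.Gro

/-!
# Row 250 (helper29): the Jacobi fields `dP β`, `dJ` of an end
-/

set_option autoImplicit false
set_option linter.unusedSectionVars false
open Set Filter Topology Metric Complex
open scoped ContDiff

noncomputable section

namespace Crest.Agent.N250.Jc

open B1 Em Lp

section abs

variable {B E G : Type*} [NormedAddCommGroup B] [NormedSpace ℂ B] [NormedAddCommGroup E]
  [NormedSpace ℂ E] [NormedAddCommGroup G] [NormedSpace ℂ G]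

theorem lkP {z : ℝ → B → E} {z0 : B → E} {Ψ : E → G} {φ : B → G}
    (hz : ∀ᶠ b in 𝓝 0, Tendsto (fun X => z X b) atTop (𝓝 (z0 b))) (hd : DifferentiableAt ℂ z0 0)
    (hΨ : ContDiffAt ℂ 1 Ψ (z0 0))
    (hφ : ∀ᶠ b in 𝓝 0, Tendsto (fun X => Ψ (z X b)) atTop (𝓝 (φ b))) :
    HasFDerivAt φ ((fderiv ℂ Ψ (z0 0)).comp (fderiv ℂ z0 0)) 0 := by
  refine ((hΨ.differentiableAt one_ne_zero).hasFDerivAt.comp 0 hd.hasFDerivAt).congr_of_eventuallyEq ?_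
  filter_upwards [hz, hφ, hd.continuousAt.eventually (hΨ.eventually (by simp))] with b h1 h2 h3
  exact tendsto_nhds_unique h2 (h3.continuousAt.tendsto.comp h1)

theorem lkJ {y : ℝ → ℂ → E} {y0 y1 : E} {Ψ : E → G}
    (hy : ∀ᶠ X in atTop, DifferentiableAt ℂ (y X) 0) (h0 : Tendsto (fun X => y X 0) atTop (𝓝 y0))
    (h1 : Tendsto (fun X => deriv (y X) 0) atTop (𝓝 y1)) (hΨ : ContDiffAt ℂ 1 Ψ y0) :
    Tendsto (fun X => deriv (fun a => Ψ (y X a)) 0) atTop (𝓝 (fderiv ℂ Ψ y0 y1)) := by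
  have h2 := (hΨ.continuousAt_fderiv one_ne_zero).tendsto.comp h0
  refine ((isBoundedBilinearMap_apply.continuous.tendsto _).comp (h2.prodMk_nhds h1)).congr' ?_
  filter_upwards [hy, h0.eventually (hΨ.eventually (by simp))] with X k1 k2
  exact ((k2.differentiableAt one_ne_zero).hasFDerivAt.comp_hasDerivAt 0 k1.hasDerivAt).deriv.symm

end abs

variable {ℓ : Ell} (R : ℝ) (U : Par ℓ → Jt ℓ) (b0 : Wi (omP 2))

/-- the limit end with the datum `b0 + b` -/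
def vI (b : Wi (omP 2)) (q : ℝ × ℝ) : ℂ := limUnder atTop fun X => vv R U b0 X 0 b q

/-- the derivative in the datum -/
def dP (β : Wi (omP 2)) (q : ℝ × ℝ) : ℂ := fderiv ℂ (fun b => vI R U b0 b q) 0 β

/-- the derivative in the far parameter -/
def dJ (q : ℝ × ℝ) : ℂ := limUnder atTop fun X => deriv (fun a => vv R U b0 X a 0 q) 0

variable {R U b0} {K ε ε1 C0 Ch c CD C c0 T X A : ℝ} {V : ℝ × ℝ → ℂ} {q : ℝ × ℝ} {a : ℂ}
  {b : Wi (omP 2)} {z0 z1 z2 : Wi (omP 2) → Jt (hf ℓ)}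

/-- the setting: the family converges to `V` at the datum `b0` -/
structure Se (U : Par ℓ → Jt ℓ) (R K ε ε1 C0 Ch c CD C c0 : ℝ) (b0 : Wi (omP 2))
    (V : ℝ × ℝ → ℂ) : Prop where
  F : Fm U R K ε ε1 C0 Ch c CD C c0
  hb : R ^ (13 / 8 : ℝ) * ‖b0‖ < ε / 2
  sm : ContDiffOn ℝ ∞ V (Ioi R ×ˢ univ)
  lim : ∀ q : ℝ × ℝ, R ≤ q.1 → Tendsto (fun X => vv R U b0 X 0 0 q) atTop (𝓝 (V q))

/-- the value at a point -/
def vL (ℓ : Ell) (R T : ℝ) (k : Fin 6) (q : ℝ × ℝ) : Jt ℓ →L[ℂ] ℂ :=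
  (valL ℓ (tX R T q.1) q.2).comp (ContinuousLinearMap.proj k)

theorem vL_apply (k : Fin 6) (D : Jt ℓ) : vL ℓ R T k q D = fk (tX R T) D k q := rfl

theorem jet_tX (hT : R + 2 ≤ T) {D : Jt ℓ} (h : IsJet (dgam R T) D) (hq : q.1 ∈ Ioo R T)
    {f : ℝ × ℝ → ℂ} (e : ∀ y : ℝ × ℝ, y.1 ∈ Icc R T → f y = fk (tX R T) D 0 y) :
    jet f q = evJ ℓ (tX R T q.1) q.2 D := by
  rw [← jet_fk h (rd_real hT) (Icc_mem_nhds hq.1 hq.2)]
  exact jet_congr ((continuous_fst.continuousAt.eventually_mem (Icc_mem_nhds hq.1 hq.2)).mono e)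

theorem fc_fk (hT : R + 2 ≤ T) (D : Jt ℓ) (m : ℤ) :
    Lg.bc R (fk (tX R T) D 0) m = Wi.co (D 0) m i0 := by
  have e : tX R T R = i0 := by simpa [xr_i0] using tX_xr hT i0
  have h := Sm.integral_Sy ((rd_real hT).md (D 0)) le_rfl (x := R) ⟨le_rfl, by linarith⟩ m
  have h2 : ((2 * Real.pi : ℝ) : ℂ) ≠ 0 := ofReal_ne_zero.2 (by positivity)
  rw [Lg.bc, Ra.fc, fk_eq, h, pow_zero, one_mul, Sm.md, e, inv_mul_cancel_left₀ h2]

theorem bc_congr {f g : ℝ × ℝ → ℂ} (e : ∀ θ, f (R, θ) = g (R, θ)) (m : ℤ) :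
    Lg.bc R f m = Lg.bc R g m := by simp only [Lg.bc, e]

/-- a family of jets at all cuts defines a Jacobi field -/
theorem reg_of {d : ℝ × ℝ → ℂ} {c1 : ℝ} (hc : 0 < c1) (hl : ∀ m : ℤ, c1 * |(m : ℝ)| ≤ ℓ.l m)
    (hV : ContDiffOn ℝ ∞ V (Ioi R ×ˢ univ)) (hn : ∀ q : ℝ × ℝ, R < q.1 → Nd (jet V q))
    (he : ∀ q : ℝ × ℝ, R < q.1 → linEL V d q = 0)
    (hD : ∀ T, R + 2 ≤ T → ∃ D : Jt ℓ, IsJet (dgam R T) D ∧
      ∀ y : ℝ × ℝ, y.1 ∈ Icc R T → d y = fk (tX R T) D 0 y) :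
    ContDiffOn ℝ ∞ d (Ioi R ×ˢ univ) ∧ ContDiffOn ℝ 2 d (Ici R ×ˢ univ) := by
  refine ⟨fun y hy => ?_, fun y hy => ?_⟩
  · have h1 : R < y.1 := hy.1
    obtain ⟨D, hj, e⟩ := hD (y.1 + 2) (by linarith)
    have hT : R + 2 ≤ y.1 + 2 := by linarith
    have hs : Ioo (R + (y.1 - R) / 2) (y.1 + 2) ⊆ Ioo R (y.1 + 2) := Ioo_subset_Ioo_left (by linarith)
    have hs' := hs.trans Ioo_subset_Icc_self
    have k := lin_reg isOpen_Ioo ((rd_real hT).mono (convex_Ioo _ _) hs') hj (fun n => ?_)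
      (hV.mono (prod_mono (fun x hx => (hs hx).1) subset_rfl)) (fun w hw => hn w (hs hw.1).1)
      fun w hw => ?_
    · have m : Ioo (R + (y.1 - R) / 2) (y.1 + 2) ×ˢ (univ : Set ℝ) ∈ 𝓝 y :=
        prod_mem_nhds (Ioo_mem_nhds (by linarith) (by linarith)) univ_mem
      exact ((k.congr fun w hw => e w (hs' hw.1)).contDiffAt m).contDiffWithinAt
    · obtain ⟨B, hB⟩ := exists_gn hc hl (sig_pos (u := (y.1 - R) / 2) (by linarith)) n
      exact ⟨B, fun x hx => hB.gain (by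
        rw [← sig_xr' hT, xr_tX hT (hs' hx)]; exact sig_mono (by linarith [hx.1]))⟩
    · rw [← he w (hs hw.1).1]
      exact (linEL_congr ((continuous_fst.continuousAt.eventually_mem
        (Icc_mem_nhds (hs hw.1).1 (hs hw.1).2)).mono e)).symm
  · have h1 : R ≤ y.1 := hy.1
    obtain ⟨D, hj, e⟩ := hD (y.1 + 2) (by linarith)
    have k := (fk_c2 hj (rd_real (by linarith)) (uniqueDiffOn_Icc (by linarith))).congr
      fun w hw => e w hw.1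
    refine (k y ⟨⟨h1, by linarith⟩, trivial⟩).mono_of_mem_nhdsWithin ?_
    have ho : {w : ℝ × ℝ | w.1 < y.1 + 2} ∈ 𝓝 y :=
      (isOpen_lt continuous_fst continuous_const).mem_nhds (by simp)
    filter_upwards [mem_nhdsWithin_of_mem_nhds ho, self_mem_nhdsWithin] with w k1 k2
    exact ⟨⟨k2.1, le_of_lt k1⟩, trivial⟩

theorem vv_per (x θ : ℝ) : vv R U b0 X a b (x, θ + 2 * Real.pi) = vv R U b0 X a b (x, θ) :=
  vk_per 0 x θ

theorem dP_per (β : Wi (omP 2)) : Po.Per (dP R U b0 β) := fun x θ => by simp only [dP, vI, vv_per]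

theorem dJ_per : Po.Per (dJ R U b0) := fun x θ => by simp only [dJ, vv_per]

/-- large cuts -/
structure Lc (R K c T X : ℝ) : Prop where
  cut : Cut2 R T X
  ez : ∀ a : ℂ, ‖a‖ ≤ 4 * c / X ^ 2 → Ez R K c X a
  ev : ∀ᶠ a : ℂ in 𝓝 0, Ez R K c X a

theorem ev_lc (hc : 0 < c) (hT : R + 2 ≤ T) : ∀ᶠ X in atTop, Lc R K c T X := by
  filter_upwards [ev_ez R K, eventually_ge_atTop T, eventually_gt_atTop 0] with X h1 h2 h3
  refine ⟨⟨hT, h2⟩, fun a ha => ⟨h1.1, h1.2, ha⟩, ?_⟩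
  filter_upwards [closedBall_mem_nhds (0 : ℂ) (show 0 < 4 * c / X ^ 2 by positivity)] with a ha
  exact ⟨h1.1, h1.2, mem_closedBall_zero_iff.1 ha⟩

namespace Se

variable (H : Se U R K ε ε1 C0 Ch c CD C c0 b0 V)
include H

theorem mem0 : (0 : Wi (omP 2)) ∈ Ub R ε b0 := by simpa [Ub] using H.hb

theorem ub : Ub R ε b0 ∈ 𝓝 (0 : Wi (omP 2)) := (isOpen_Ub R ε b0).mem_nhds H.mem0

theorem jet_eT (h : Lc R K c T X) (ha : Ez R K c X a) (hb : b ∈ Ub R ε b0) :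
    IsJet (dgam R T) (eT R U b0 T X a b) :=
  isJet_rs h.cut (isJet_vJ (H.F.isEnd.sol _ (ha.dom H.F hb)).jet)

theorem jet_vv (h : Lc R K c T X) (ha : Ez R K c X a) (hb : b ∈ Ub R ε b0) (hq : q.1 ∈ Ioo R T) :
    jet (vv R U b0 X a b) q = evJ _ (tX R T q.1) q.2 (eT R U b0 T X a b) :=
  jet_tX h.cut.lo (H.jet_eT h ha hb) hq fun _ hy => (fk_eT h.cut 0 hy).symm

theorem diff_a (h : Lc R K c T X) (hb : b ∈ Ub R ε b0) :
    DifferentiableAt ℂ (fun a => eT R U b0 T X a b) 0 :=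
  (diff_eT H.F differentiableOn_id (differentiableOn_const _) fun _ ha => ⟨ha, hb⟩).differentiableAt
    h.ev

section cut

variable (hT : R + 2 ≤ T) (hE : El.Exp (eT R U b0 T) (Ub R ε b0) c z0 z1 z2 A)
include hT hE

theorem vI_eq (hb : b ∈ Ub R ε b0) (hq : q.1 ∈ Icc R T) :
    Tendsto (fun X => vv R U b0 X 0 b q) atTop (𝓝 (vL _ R T 0 q (z0 b))) :=
  (((vL _ R T 0 q).continuous.tendsto _).comp (hE.t0 b hb)).congr'
    ((ev_lc (R := R) (K := K) H.F.c_pos hT).mono fun _ h => fk_eT h.cut 0 hq)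

theorem V_eq (hq : q.1 ∈ Icc R T) : V q = fk (tX R T) (z0 0) 0 q :=
  tendsto_nhds_unique (H.lim q hq.1) (H.vI_eq hT hE H.mem0 hq)

theorem d0 : DifferentiableAt ℂ z0 0 := hE.d0.differentiableAt H.ub

theorem dP_eq (β : Wi (omP 2)) (hq : q.1 ∈ Icc R T) :
    dP R U b0 β q = fk (tX R T) (fderiv ℂ z0 0 β) 0 q := by
  have h := ((vL _ R T 0 q).hasFDerivAt.comp 0 (H.d0 hT hE).hasFDerivAt).congr_of_eventuallyEq
    (f₁ := fun b => vI R U b0 b q) (mem_of_superset H.ub fun b hb => (H.vI_eq hT hE hb hq).limUnder_eq)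
  rw [dP, h.fderiv]; rfl

theorem dJ_lim (hq : q.1 ∈ Icc R T) : Tendsto (fun X => deriv (fun a => vv R U b0 X a 0 q) 0) atTop
    (𝓝 (fk (tX R T) (z1 0) 0 q)) := by
  refine (((vL _ R T 0 q).continuous.tendsto _).comp (hE.t1 0 H.mem0)).congr'
    ((ev_lc (R := R) (K := K) H.F.c_pos hT).mono fun X h => ?_)
  have := ((vL _ R T 0 q).hasFDerivAt.comp_hasDerivAt 0 (H.diff_a h H.mem0).hasDerivAt).deriv
  refine this.symm.trans ?_
  congr 1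
  funext a
  exact fk_eT h.cut 0 hq

theorem dJ_eq (hq : q.1 ∈ Icc R T) : dJ R U b0 q = fk (tX R T) (z1 0) 0 q :=
  (H.dJ_lim hT hE hq).limUnder_eq

theorem jet_z0 (hb : b ∈ Ub R ε b0) : IsJet (dgam R T) (z0 b) :=
  isJet_lim ((ev_lc (R := R) (K := K) H.F.c_pos hT).mono fun _ h => H.jet_eT h h.ev.self_of_nhds hb)
    (hE.t0 b hb)

theorem jet_zP (β : Wi (omP 2)) : IsJet (dgam R T) (fderiv ℂ z0 0 β) := by
  have h1 : HasDerivAt (fun t : ℂ => t • β) β 0 := by simpa using (hasDerivAt_id (0 : ℂ)).smul_const β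
  refine isJet_deriv (J := fun t : ℂ => z0 (t • β)) ?_
    ((H.d0 hT hE).hasFDerivAt.comp_hasDerivAt_of_eq 0 h1 (by simp))
  exact (h1.continuousAt.eventually_mem (by simpa using H.ub)).mono fun t ht => H.jet_z0 hT hE ht

theorem jet_z1 : IsJet (dgam R T) (z1 0) :=
  isJet_lim ((ev_lc (R := R) (K := K) H.F.c_pos hT).mono fun _ h => isJet_deriv
    (h.ev.mono fun _ ha => H.jet_eT h ha H.mem0) (H.diff_a h H.mem0).hasDerivAt) (hE.t1 0 H.mem0)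

theorem jet_V (hq : q.1 ∈ Ioo R T) : jet V q = evJ _ (tX R T q.1) q.2 (z0 0) :=
  jet_tX hT (H.jet_z0 hT hE H.mem0) hq fun _ hy => H.V_eq hT hE hy

theorem jet_dP (β : Wi (omP 2)) (hq : q.1 ∈ Ioo R T) :
    jet (dP R U b0 β) q = evJ _ (tX R T q.1) q.2 (fderiv ℂ z0 0 β) :=
  jet_tX hT (H.jet_zP hT hE β) hq fun _ hy => H.dP_eq hT hE β hy

theorem jet_dJ (hq : q.1 ∈ Ioo R T) : jet (dJ R U b0) q = evJ _ (tX R T q.1) q.2 (z1 0) :=
  jet_tX hT (H.jet_z1 hT hE) hq fun _ hy => H.dJ_eq hT hE hy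

end cut

section link

variable {G : Type*} [NormedAddCommGroup G] [NormedSpace ℂ G] {Ψ : (Fin 6 → ℂ) → G}

theorem jet_lim (hq : R < q.1) :
    Tendsto (fun X => jet (vv R U b0 X 0 0) q) atTop (𝓝 (jet V q)) := by
  have hT : R + 2 ≤ q.1 + 2 := by linarith
  have hq' : q.1 ∈ Ioo R (q.1 + 2) := ⟨hq, by linarith⟩
  obtain ⟨z0, z1, z2, A, hE⟩ := exp (b0 := b0) H.F hT
  rw [H.jet_V hT hE hq']
  exact (((evJ _ _ _).continuous.tendsto _).comp (hE.t0 0 H.mem0)).congr'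
    ((ev_lc (R := R) (K := K) H.F.c_pos hT).mono fun _ h => (H.jet_vv h h.ev.self_of_nhds H.mem0 hq').symm)

/-- limits of functions of the 2-jet, derivative in the datum -/
theorem lP (hq : R < q.1) (hΨ : ContDiffAt ℂ 1 Ψ (jet V q)) {φ : Wi (omP 2) → G}
    (hφ : ∀ᶠ b in 𝓝 0, Tendsto (fun X => Ψ (jet (vv R U b0 X 0 b) q)) atTop (𝓝 (φ b)))
    (β : Wi (omP 2)) : fderiv ℂ φ 0 β = fderiv ℂ Ψ (jet V q) (jet (dP R U b0 β) q) := by
  have hT : R + 2 ≤ q.1 + 2 := by linarith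
  have hq' : q.1 ∈ Ioo R (q.1 + 2) := ⟨hq, by linarith⟩
  obtain ⟨z0, z1, z2, A, hE⟩ := exp (b0 := b0) H.F hT
  set L := evJ (hf ℓ) (tX R (q.1 + 2) q.1) q.2
  have hd := L.hasFDerivAt.comp 0 (H.d0 hT hE).hasFDerivAt
  rw [H.jet_V hT hE hq'] at hΨ ⊢
  have := lkP (z := fun X b => jet (vv R U b0 X 0 b) q) (z0 := L ∘ z0) (mem_of_superset H.ub
    fun b hb => ((L.continuous.tendsto _).comp (hE.t0 b hb)).congr' ((ev_lc (R := R) (K := K) H.F.c_pos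
      hT).mono fun _ h => (H.jet_vv h h.ev.self_of_nhds hb hq').symm)) hd.differentiableAt hΨ hφ
  rw [this.fderiv, hd.fderiv, H.jet_dP hT hE β hq']; rfl

/-- the same for the far parameter -/
theorem lJ (hq : R < q.1) (hΨ : ContDiffAt ℂ 1 Ψ (jet V q)) :
    Tendsto (fun X => deriv (fun a => Ψ (jet (vv R U b0 X a 0) q)) 0) atTop
      (𝓝 (fderiv ℂ Ψ (jet V q) (jet (dJ R U b0) q))) := by
  have hT : R + 2 ≤ q.1 + 2 := by linarith
  have hq' : q.1 ∈ Ioo R (q.1 + 2) := ⟨hq, by linarith⟩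
  obtain ⟨z0, z1, z2, A, hE⟩ := exp (b0 := b0) H.F hT
  set L := evJ (hf ℓ) (tX R (q.1 + 2) q.1) q.2
  have k : ∀ᶠ X in atTop, HasDerivAt (fun a => jet (vv R U b0 X a 0) q)
      (L (deriv (fun a => eT R U b0 (q.1 + 2) X a 0) 0)) 0 :=
    (ev_lc (R := R) (K := K) H.F.c_pos hT).mono fun X h =>
      (L.hasFDerivAt.comp_hasDerivAt 0 (H.diff_a h H.mem0).hasDerivAt).congr_of_eventuallyEq
        (h.ev.mono fun a ha => H.jet_vv h ha H.mem0 hq')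
  refine lkJ (k.mono fun _ h => h.differentiableAt) (H.jet_lim hq) ?_ hΨ
  rw [H.jet_dJ hT hE hq']
  exact ((L.continuous.tendsto _).comp (hE.t1 0 H.mem0)).congr' (k.mono fun _ h => h.deriv.symm)

end link

theorem jet_vk (h : Lc R K c T X) (ha : Ez R K c X a) (hb : b ∈ Ub R ε b0) (hq : q.1 ∈ Ioo R T)
    (i : Fin 6) : jet (vv R U b0 X a b) q i =
      vj R X a (U (zb b0 X a b)) (tX R X q.1) q.2 (pm i) := by
  rw [H.jet_vv h ha hb hq]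
  exact fk_eT h.cut (pm i) (Ioo_subset_Icc_self hq)

theorem el_vv (h : Lc R K c T X) (ha : Ez R K c X a) (hb : b ∈ Ub R ε b0) (hq : q.1 ∈ Ioo R T) :
    ELj q.1 (jet (vv R U b0 X a b) q) = 0 :=
  (H.F.isEnd.sol _ (ha.dom H.F hb)).eq_d (rd_real h.cut.lo')
    (Icc_mem_nhds hq.1 (hq.2.trans_le h.cut.le)) rfl

theorem nd (hq : R < q.1) : Nd (jet V q) ∧ 0 < (V q).re := by
  have hT : R + 2 ≤ q.1 + 2 := by linarith
  have hq' : q.1 ∈ Ioo R (q.1 + 2) := ⟨hq, by linarith⟩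
  have hl := fun i => (continuous_apply i).continuousAt.tendsto.comp (H.jet_lim hq)
  have k : ∀ᶠ X in atTop, 7 / 8 ≤ (jet (vv R U b0 X 0 0) q 0).re ∧
      ‖QQj (jet (vv R U b0 X 0 0) q) - 2‖ ≤ 3 / 4 + 1 / 100 ∧
      3 ≤ ‖4 * jet (vv R U b0 X 0 0) q 0 ^ 2 + jet (vv R U b0 X 0 0) q 2 ^ 2‖ := by
    filter_upwards [ev_lc (R := R) (K := K) H.F.c_pos hT] with X h
    have S := H.F.sl (h.ev.self_of_nhds.dom H.F H.mem0)
    have h1 := Rg.reg_q H.F.sz.ex H.F.sz.hR H.F.sz.hK H.F.sz.he S.dom (Rg.IsJet.co3 S.sol.jet) S.inb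
      (tX R X q.1) q.2
    have h2 := (S.lower H.F.sz (tX R X q.1) q.2).2
    simp only [QQj, H.jet_vk h h.ev.self_of_nhds H.mem0 hq']
    simpa [zb, et, pm] using And.intro h1.1 (And.intro h1.2 h2)
  have h0 : 7 / 8 ≤ (jet V q 0).re :=
    ge_of_tendsto (continuous_re.continuousAt.tendsto.comp (hl 0)) (k.mono fun _ h => h.1)
  have h1 : jet V q 0 ≠ 0 := fun e => by rw [e, zero_re] at h0; linarith
  refine ⟨⟨h1, fun e => ?_, fun e => ?_⟩, lt_of_lt_of_le (by norm_num) h0⟩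
  · have := le_of_tendsto (((diff_QQj h1).continuousAt.tendsto.comp (H.jet_lim hq)).sub_const 2).norm
      (k.mono fun _ h => h.2.1)
    rw [e] at this; norm_num at this
  · have := ge_of_tendsto ((((hl 0).pow 2).const_mul 4).add ((hl 2).pow 2)).norm
      (k.mono fun _ h => h.2.2)
    rw [e] at this; norm_num at this

theorem lin_dP (β : Wi (omP 2)) (hq : R < q.1) : linEL V (dP R U b0 β) q = 0 := by
  have := H.lP hq (cd_ELj' q.1 (H.nd hq).1) (φ := fun _ => 0) (mem_of_superset H.ub fun b hb =>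
    tendsto_const_nhds.congr' ((ev_lc (R := R) (K := K) (T := q.1 + 2) H.F.c_pos (by linarith)).mono
      fun _ h => (H.el_vv h h.ev.self_of_nhds hb ⟨hq, by linarith⟩).symm)) β
  rw [linEL, ← this]; simp

theorem lin_dJ (hq : R < q.1) : linEL V (dJ R U b0) q = 0 := by
  refine tendsto_nhds_unique (H.lJ hq (cd_ELj' q.1 (H.nd hq).1)) (tendsto_const_nhds.congr'
    ((ev_lc (R := R) (K := K) (T := q.1 + 2) H.F.c_pos (by linarith)).mono fun X h => ?_))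
  exact ((hasDerivAt_const (0 : ℂ) (0 : ℂ)).congr_of_eventuallyEq
    (h.ev.mono fun a ha => H.el_vv h ha H.mem0 ⟨hq, by linarith⟩)).deriv.symm

theorem hl2 (m : ℤ) : c0 / 2 * |(m : ℝ)| ≤ (hf ℓ).l m := by
  have := H.F.hl m
  change _ ≤ ℓ.l m / 2
  linarith

theorem reg_dP (β : Wi (omP 2)) : ContDiffOn ℝ ∞ (dP R U b0 β) (Ioi R ×ˢ univ) ∧
    ContDiffOn ℝ 2 (dP R U b0 β) (Ici R ×ˢ univ) :=
  reg_of (half_pos H.F.c0_pos) H.hl2 H.sm (fun _ hq => (H.nd hq).1) (fun _ hq => H.lin_dP β hq)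
    fun T hT => by
      obtain ⟨z0, z1, z2, A, hE⟩ := exp (b0 := b0) H.F hT
      exact ⟨_, H.jet_zP hT hE β, fun y hy => H.dP_eq hT hE β hy⟩

theorem reg_dJ : ContDiffOn ℝ ∞ (dJ R U b0) (Ioi R ×ˢ univ) ∧
    ContDiffOn ℝ 2 (dJ R U b0) (Ici R ×ˢ univ) :=
  reg_of (half_pos H.F.c0_pos) H.hl2 H.sm (fun _ hq => (H.nd hq).1) (fun _ hq => H.lin_dJ hq)
    fun T hT => by
      obtain ⟨z0, z1, z2, A, hE⟩ := exp (b0 := b0) H.F hT
      exact ⟨_, H.jet_z1 hT hE, fun y hy => H.dJ_eq hT hE hy⟩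

/-! ### modes at `x = R` -/

/-- the mode `m` at `x = R` -/
def mL (ℓ : Ell) (m : ℤ) : Jt ℓ →L[ℂ] ℂ :=
  ((ContinuousMap.evalCLM ℂ i0).comp (Wi.coL (om ℓ) m)).comp (ContinuousLinearMap.proj 0)

omit H in
theorem bc_vv (h : Cut2 R T X) (m : ℤ) :
    Lg.bc R (vv R U b0 X a b) m = mL _ m (eT R U b0 T X a b) :=
  (bc_congr (fun θ => (fk_eT (y := (R, θ)) h 0 ⟨le_rfl, by linarith [h.lo]⟩).symm) m).trans
    (fc_fk h.lo _ m)

theorem mP (m : ℤ) {φ : Wi (omP 2) → ℂ} {g : ℂ}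
    (hφ : ∀ᶠ b in 𝓝 0, Tendsto (fun X => Lg.bc R (vv R U b0 X 0 b) m - g) atTop (𝓝 (φ b)))
    (β : Wi (omP 2)) : fderiv ℂ φ 0 β = Lg.bc R (dP R U b0 β) m := by
  obtain ⟨z0, z1, z2, A, hE⟩ := exp (b0 := b0) H.F (T := R + 2) le_rfl
  have hd := (((mL _ m).hasFDerivAt.comp 0 (H.d0 le_rfl hE).hasFDerivAt).sub_const
    g).congr_of_eventuallyEq (f₁ := φ) (by
      filter_upwards [hφ, H.ub] with b h1 hb
      exact tendsto_nhds_unique h1 (((((mL _ m).continuous.tendsto _).comp (hE.t0 b hb)).congr'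
        ((ev_lc (R := R) (K := K) H.F.c_pos le_rfl).mono fun _ h => (bc_vv h.cut m).symm)).sub_const g))
  rw [hd.fderiv, bc_congr (fun θ => H.dP_eq le_rfl hE β (q := (R, θ)) ⟨le_rfl, by linarith⟩),
    fc_fk le_rfl]
  rfl

theorem mJ (m : ℤ) (g : ℂ) : Tendsto (fun X => deriv (fun a => Lg.bc R (vv R U b0 X a 0) m - g) 0)
    atTop (𝓝 (Lg.bc R (dJ R U b0) m)) := by
  obtain ⟨z0, z1, z2, A, hE⟩ := exp (b0 := b0) H.F (T := R + 2) le_rfl
  rw [bc_congr (fun θ => H.dJ_eq le_rfl hE (q := (R, θ)) ⟨le_rfl, by linarith⟩), fc_fk le_rfl]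
  refine (((mL _ m).continuous.tendsto _).comp (hE.t1 0 H.mem0)).congr'
    ((ev_lc (R := R) (K := K) H.F.c_pos le_rfl).mono fun X h => ?_)
  have := (((mL _ m).hasFDerivAt.comp_hasDerivAt 0 (H.diff_a h H.mem0).hasDerivAt).sub_const g).deriv
  refine this.symm.trans ?_
  congr 1
  funext a
  rw [bc_vv h.cut]; rfl

theorem bc_in (h : Lc R K c T X) (ha : Ez R K c X a) (hb : b ∈ Ub R ε b0) {m : ℤ} (hm : 2 ≤ |m|) :
    Lg.bc R (vv R U b0 X a b) m - Wi.co b0 m = Wi.co b m := by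
  have h1 := (H.F.isEnd.sol _ (ha.dom H.F hb)).bc.inner m hm
  have h2 : mL _ m (eT R U b0 T X a b) = Wi.co (vJ R X a (U (zb b0 X a b)) 0) m i0 := by
    change Wi.co (eT R U b0 T X a b 0) m i0 = _
    rw [eT, co_rs h.cut, h.cut.phi_i0]
  have h0 : m ≠ 0 := by rintro rfl; simp at hm
  have h3 : Wi.co (vJ R X a (U (zb b0 X a b)) 0) m = Wi.co (U (zb b0 X a b) 0) m := by
    rw [vJ, Pi.add_apply, Wi.co_add]
    exact add_eq_left.2 ((Wi.co_cst _ m).trans (if_neg h0))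
  rw [bc_vv h.cut, h2, h3, h1]
  simp [zb, wd]

theorem norm_dP (β : Wi (omP 2)) : ∃ M, ∀ q : ℝ × ℝ, R ≤ q.1 → ‖dP R U b0 β q‖ ≤ M := by
  obtain ⟨r, hr, hs⟩ := Metric.mem_nhds_iff.1 H.ub
  refine ⟨2 * (1 + 6 * ε1) / r * ‖β‖, fun q hq => ?_⟩
  have hT : R + 2 ≤ q.1 + 2 := by linarith
  have hq' : q.1 ∈ Icc R (q.1 + 2) := ⟨hq, by linarith⟩
  obtain ⟨z0, z1, z2, A, hE⟩ := exp (b0 := b0) H.F hT
  have e := fun b hb => H.vI_eq hT hE (b := b) (hs hb) hq'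
  refine (ContinuousLinearMap.le_opNorm _ _).trans (mul_le_mul_of_nonneg_right (N250.H.fd_le hr
    ((((vL _ R _ 0 q).differentiable.comp_differentiableOn hE.d0).mono hs).congr
      fun b hb => (e b hb).limUnder_eq) fun b hb => ?_) (norm_nonneg _))
  rw [vI, (e b hb).limUnder_eq]
  refine le_of_tendsto (e b hb).norm ((ev_lc (R := R) (K := K) H.F.c_pos hT).mono fun X h => ?_)
  have h1 := (norm_val_le _ (tX R X q.1) q.2).trans
    ((norm_le_pi_norm _ 0).trans (h.ev.self_of_nhds.norm_U H.F (hs hb)))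
  have h2 : vv R U b0 X 0 b q = 1 + val (U (zb b0 X 0 b) 0) (tX R X q.1) q.2 := by
    simp [vv, vX, vk, vj, et]
  rw [h2]
  exact norm_add_le_of_le norm_one.le h1

/-- **(J1)** -/
theorem j1 (β : Wi (omP 2)) : Lg.J1 V R β (dP R U b0 β) := by
  obtain ⟨M, hM⟩ := H.norm_dP β
  refine ⟨⟨(H.reg_dP β).1, (H.reg_dP β).2.of_le (by norm_num), dP_per β, fun _ hq => H.lin_dP β hq,
    M, 0, fun q hq => by simpa using hM q hq.le⟩, fun t ht => ⟨max R (M / t), fun q hq => ?_⟩,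
    fun m hm => ?_⟩
  · refine (hM q ((le_max_left _ _).trans hq)).trans ?_
    have := (le_max_right _ _).trans hq
    rwa [div_le_iff₀' ht] at this
  · rw [← H.mP m (φ := Wi.coL _ m) (g := Wi.co b0 m) (mem_of_superset H.ub fun b hb =>
      tendsto_const_nhds.congr' ((ev_lc (R := R) (K := K) H.F.c_pos le_rfl).mono fun _ h =>
        (H.bc_in h h.ev.self_of_nhds hb hm).symm)) β, ContinuousLinearMap.fderiv]
    rfl

/-- **(J2)** -/
theorem j2 : Lg.J2 V R (dJ R U b0) := by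
  obtain ⟨h1, h2⟩ := El.lim_a H.F (b := b0 + 0) (d := dJ R U b0)
    (by rw [add_zero]; linarith [H.hb, H.F.ε_pos]) fun q hq => by
      have hT : R + 2 ≤ q.1 + 2 := by linarith
      have hq' : q.1 ∈ Icc R (q.1 + 2) := ⟨hq.le, by linarith⟩
      obtain ⟨z0, z1, z2, A, hE⟩ := exp (b0 := b0) H.F hT
      rw [H.dJ_eq hT hE hq']
      exact H.dJ_lim hT hE hq'
  refine ⟨⟨H.reg_dJ.1, H.reg_dJ.2.of_le (by norm_num), dJ_per, fun _ hq => H.lin_dJ hq, h1⟩, h2,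
    fun m hm => tendsto_nhds_unique (H.mJ m (Wi.co b0 m)) (tendsto_const_nhds.congr'
      ((ev_lc (R := R) (K := K) H.F.c_pos le_rfl).mono fun X h => ?_))⟩
  exact ((hasDerivAt_const (0 : ℂ) (Wi.co (0 : Wi (omP 2)) m)).congr_of_eventuallyEq
    (h.ev.mono fun a ha => H.bc_in h ha H.mem0 hm)).deriv.symm

section W

variable {W : Type*} [NormedAddCommGroup W] [NormedSpace ℂ W] {e0 : ℝ → ℂ → Wi (omP 2) → W}
  {c' : ℝ} {w0 w1 w2 : Wi (omP 2) → W} (hE : El.Exp e0 (Ub R ε b0) c' w0 w1 w2 A) (L : W →L[ℂ] ℂ)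
  {f : (ℝ × ℝ → ℂ) → ℂ}
  (h : ∀ (X : ℝ) a b, Ez R K c X a → b ∈ Ub R ε b0 → L (e0 X a b) = f (vv R U b0 X a b))
include hE h

theorem lim_W : ∀ᶠ b in 𝓝 0, Tendsto (fun X => f (vv R U b0 X 0 b)) atTop (𝓝 (L (w0 b))) :=
  mem_of_superset H.ub fun b hb => ((L.continuous.tendsto _).comp (hE.t0 b hb)).congr'
    ((ev_lc (R := R) (K := K) H.F.c_pos le_rfl).mono fun X k => h X 0 b k.ev.self_of_nhds hb)

theorem fd_W (β : Wi (omP 2)) : L (fderiv ℂ w0 0 β) = fderiv ℂ (fun b => L (w0 b)) 0 β := by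
  exact (congrArg (· β) (L.hasFDerivAt.comp 0 (hE.d0.differentiableAt H.ub).hasFDerivAt).fderiv).symm

theorem der_W (hd : ∀ᶠ X : ℝ in atTop, DifferentiableAt ℂ (fun a => e0 X a 0) 0) :
    Tendsto (fun X => deriv (fun a => f (vv R U b0 X a 0)) 0) atTop (𝓝 (L (w1 0))) := by
  refine ((L.continuous.tendsto _).comp (hE.t1 0 H.mem0)).congr' ?_
  filter_upwards [hd, ev_lc (R := R) (K := K) H.F.c_pos le_rfl] with X k1 k2
  exact ((L.hasFDerivAt.comp_hasDerivAt 0 k1.hasDerivAt).congr_of_eventuallyEq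
    (k2.ev.mono fun a ha => (h X a 0 ha H.mem0).symm)).deriv.symm

end W

section W

variable {W : Type*} [NormedAddCommGroup W] [NormedSpace ℂ W] {e0 : ℝ → ℂ → Wi (omP 2) → W}
  {c' : ℝ} {w0 w1 w2 : Wi (omP 2) → W} (hE : El.Exp e0 (Ub R ε b0) c' w0 w1 w2 A) (L : W →L[ℂ] ℂ)
include hE

theorem linkP {Ψ : (Fin 6 → ℂ) → ℂ} (hq : R < q.1) (hΨ : ContDiffAt ℂ 1 Ψ (jet V q))
    (h : ∀ (X : ℝ) a b, Ez R K c X a → b ∈ Ub R ε b0 → L (e0 X a b) = Ψ (jet (vv R U b0 X a b) q))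
    (β : Wi (omP 2)) : L (fderiv ℂ w0 0 β) = fderiv ℂ Ψ (jet V q) (jet (dP R U b0 β) q) :=
  (H.fd_W hE L (f := fun v => Ψ (jet v q)) h β).trans (H.lP hq hΨ (H.lim_W hE L (f := fun v => Ψ (jet v q)) h) β)

theorem linkJ {Ψ : (Fin 6 → ℂ) → ℂ} (hq : R < q.1) (hΨ : ContDiffAt ℂ 1 Ψ (jet V q))
    (h : ∀ (X : ℝ) a b, Ez R K c X a → b ∈ Ub R ε b0 → L (e0 X a b) = Ψ (jet (vv R U b0 X a b) q))
    (hd : ∀ᶠ X : ℝ in atTop, DifferentiableAt ℂ (fun a => e0 X a 0) 0) :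
    L (w1 0) = fderiv ℂ Ψ (jet V q) (jet (dJ R U b0) q) :=
  tendsto_nhds_unique (H.der_W hE L (f := fun v => Ψ (jet v q)) h hd) (H.lJ hq hΨ)

theorem modeP {m : ℤ} {g : ℂ}
    (h : ∀ (X : ℝ) a b, Ez R K c X a → b ∈ Ub R ε b0 → L (e0 X a b) = Lg.bc R (vv R U b0 X a b) m - g)
    (β : Wi (omP 2)) : L (fderiv ℂ w0 0 β) = Lg.bc R (dP R U b0 β) m :=
  (H.fd_W hE L (f := fun v => Lg.bc R v m - g) h β).trans
    (H.mP m (H.lim_W hE L (f := fun v => Lg.bc R v m - g) h) β)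

theorem modeJ {m : ℤ} {g : ℂ}
    (h : ∀ (X : ℝ) a b, Ez R K c X a → b ∈ Ub R ε b0 → L (e0 X a b) = Lg.bc R (vv R U b0 X a b) m - g)
    (hd : ∀ᶠ X : ℝ in atTop, DifferentiableAt ℂ (fun a => e0 X a 0) 0) :
    L (w1 0) = Lg.bc R (dJ R U b0) m :=
  tendsto_nhds_unique (H.der_W hE L (f := fun v => Lg.bc R v m - g) h hd) (H.mJ m g)

end W

end Se

end Crest.Agent.N250.Jc

end
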